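import Vale.Agent.P116.KB.Fin213

/-!
# P116: the normalised Koebe theorem with boundary correspondence
-/

open Set Filter Topology Metric Bornology MeasureTheory

namespace Vale.Agent.P116.H155

open H906 KF KB PBC Slow G

/-- the normalised map together with the disks of the points of `K` -/
theorem koebe_disks {K : Set ℂ} (hK : IsCompact K) (hf : Full K) (hne : K.Nonempty) :
    ∃ g : ℂ → ℂ, NU Kᶜ g ∧ (∀ x ∈ K, ∃ c r, DiskAt K g x c r) ∧
      (∀ w ∉ g '' Kᶜ, ∃ x ∈ K, ∀ c r, DiskAt K g x c r → w ∈ closedBall c r) ∧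
      ∀ x ∈ K, ∀ y ∈ K, connectedComponentIn K x ≠ connectedComponentIn K y →
        ∀ c r c' r', DiskAt K g x c r → DiskAt K g y c' r' →
          Disjoint (closedBall c r) (closedBall c' r') := by
  obtain ⟨U, Ω, _, _, P, gg, 𝔊, h, hA⟩ :=
    exists_adLaw AD.ad Cl.H779.p45 flatP cmpFlatP hK hf hne
  obtain ⟨g₀, h₀⟩ := H221.endE AD.ad hK hf hne h hA
  have := h.prob
  obtain ⟨ω₁, h₁⟩ := h₀.exists
  have hc₁ : TendstoLocallyUniformlyOn (kF fk) g₀ (𝔊 ω₁ : Filter Str) Kᶜ :=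
    (h.conv ω₁).congr_right h₁
  have hgood : ∀ x ∈ K, GoodAt fk K (𝔊 ω₁ : Filter Str) x := by
    intro x hx
    obtain ⟨ω, h2, h3⟩ := (h₀.and (h.good x hx)).exists
    exact goodAt_of_lim hK hf (h.fine ω) (h.fine ω₁) ((h.conv ω).congr_right h2) hc₁ h3
  refine ⟨g₀, (koebe_of_const hK hf h h₀).1, fun x hx => ?_, fun w hw => ?_, ?_⟩
  · obtain ⟨c, r, h1, -, -⟩ := exists_disk hK hf (h.fine ω₁) hc₁ hx (hgood x hx)
    exact ⟨c, r, h1⟩
  · obtain ⟨x, hx, hxw⟩ := exists_end hK hf (h.fine ω₁) hc₁ hw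
    refine ⟨x, hx, fun c r hD => ?_⟩
    obtain ⟨c₁, r₁, hd, -, h3⟩ := exists_disk hK hf (h.fine ω₁) hc₁ hx (hgood x hx)
    obtain ⟨rfl, rfl⟩ := hd.unique hx hD
    rw [mem_closedBall]
    refine le_of_forall_pos_le_add fun ε hε => ?_
    obtain ⟨n, hn⟩ := h3 ε hε
    obtain ⟨S, hS1, hS2⟩ := ((hxw n).and hn).exists
    exact hS2 hS1
  · intro x hx y hy hxy c r c' r' h1 h2
    exact disk_disj hK hf (h.fine ω₁) hc₁ hx hy hxy (hgood x hx) (hgood y hy) h1 h2

lemma nd_mem_nhdsSet {K : Set ℂ} {x : ℂ} (hx : x ∈ K) (n : ℕ) :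
    nd K n x ∈ 𝓝ˢ (connectedComponentIn K x) := by
  rw [mem_nhdsSet_iff_forall]
  intro y hy
  have hyK : y ∈ K := connectedComponentIn_subset _ _ hy
  have h1 : y ∈ nd K n x :=
    (isPreconnected_connectedComponentIn.subset_connectedComponentIn
      (mem_connectedComponentIn hx) ((connectedComponentIn_subset _ _).trans (subset_lev n))) hy
  exact mem_of_superset (closedBall_mem_nhds y (lr_pos n)) (closedBall_subset_nd hyK h1)

lemma diskAt_congr {K : Set ℂ} {g : ℂ → ℂ} {x y c : ℂ} {r : ℝ} (hx : x ∈ K) (hy : y ∈ K)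
    (hxy : connectedComponentIn K x = connectedComponentIn K y) (h : DiskAt K g x c r) :
    DiskAt K g y c r := by
  refine ⟨h.nonneg, h.compl, h.comp, fun ε hε => ?_, h.out⟩
  obtain ⟨n, hn⟩ := h.near ε hε
  refine ⟨n, ?_⟩
  rw [← nd_eq_of_cc hx hy hxy n]
  exact hn

/-- the omitted set is compact -/
lemma isCompact_omitted {K : Set ℂ} (hK : IsCompact K) {g : ℂ → ℂ} (hg : NU Kᶜ g) :
    IsCompact (g '' Kᶜ)ᶜ := by
  obtain ⟨b, hb⟩ := hK.isBounded.exists_norm_le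
  have hT : 0 < max b 1 := lt_max_of_lt_right one_pos
  have hU : (closedBall (0:ℂ) (max b 1))ᶜ ⊆ Kᶜ := by
    refine compl_subset_compl.2 fun z hz => ?_
    rw [mem_closedBall, dist_zero_right]
    exact (hb z hz).trans (le_max_left b 1)
  refine (isCompact_omit hT hg hU).of_isClosed_subset ?_
    (compl_subset_compl.2 (image_mono hU))
  exact (FK.isOpen_image_of_injOn hK.isClosed.isOpen_compl hg.diff hg.inj).isClosed_compl

/-- **the normalised Koebe theorem with boundary correspondence** -/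
theorem koebe_full {K : Set ℂ} (hK : IsCompact K) (hc : IsPreconnected Kᶜ) :
    ∃ (f : ℂ → ℂ) (c : ℂ → ℂ) (r : ℂ → ℝ),
      DifferentiableOn ℂ f Kᶜ ∧ InjOn f Kᶜ ∧ Tendsto (fun z => f z - z) (cocompact ℂ) (𝓝 0) ∧
      IsCompact (f '' Kᶜ)ᶜ ∧
      (∀ w ∉ f '' Kᶜ, ∃ x ∈ K, connectedComponentIn (f '' Kᶜ)ᶜ w = closedBall (c x) (r x)) ∧
      ∀ x ∈ K, 0 ≤ r x ∧ connectedComponentIn (f '' Kᶜ)ᶜ (c x) = closedBall (c x) (r x) ∧
        (∀ ε > 0, ∀ᶠ z in 𝓝ˢ (connectedComponentIn K x), z ∉ K → ‖f z - c x‖ < r x + ε) ∧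
        ∀ y ∈ K, (connectedComponentIn K y = connectedComponentIn K x → c y = c x ∧ r y = r x) ∧
          (connectedComponentIn K y ≠ connectedComponentIn K x →
            Disjoint (closedBall (c y) (r y)) (closedBall (c x) (r x))) := by
  classical
  rcases K.eq_empty_or_nonempty with rfl | hne
  · refine ⟨id, id, fun _ => 0, differentiableOn_id, injOn_id _, by simp, by simp, by simp, by simp⟩
  have hf : Full K := full_of_isPreconnected_compl hc hK.isBounded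
  obtain ⟨g, hg, h1, h2, h3⟩ := koebe_disks hK hf hne
  have h4 : ∀ x, ∃ p : ℂ × ℝ, x ∈ K → DiskAt K g x p.1 p.2 := by
    intro x
    by_cases hx : x ∈ K
    · obtain ⟨c, r, h⟩ := h1 x hx
      exact ⟨(c, r), fun _ => h⟩
    · exact ⟨(0, 0), fun h => absurd h hx⟩
  choose p hp using h4
  refine ⟨g, fun x => (p x).1, fun x => (p x).2, hg.diff, hg.inj, ?_, isCompact_omitted hK hg, ?_,
    fun x hx => ?_⟩
  · have := hg.norm
    rwa [Metric.cobounded_eq_cocompact] at this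
  · intro w hw
    obtain ⟨x, hx, h5⟩ := h2 w hw
    exact ⟨x, hx, (hp x hx).comp w (h5 _ _ (hp x hx))⟩
  · have hD := hp x hx
    refine ⟨hD.nonneg, hD.comp _ (mem_closedBall_self hD.nonneg), fun ε hε => ?_, fun y hy => ?_⟩
    · obtain ⟨n, hn⟩ := hD.near (ε / 2) (by positivity)
      filter_upwards [nd_mem_nhdsSet hx n] with z hz hzK
      linarith [hn z hz hzK]
    · exact ⟨fun hxy => (diskAt_congr hy hx hxy (hp y hy)).unique hx hD,
        fun hxy => h3 y hy x hx hxy _ _ _ _ (hp y hy) hD⟩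

end Vale.Agent.P116.H155
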