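import Vale.Agent.P116.H155.Bdry

/-!
# P116: Koebe's theorem for plane domains
-/

open Set Filter Topology Metric

namespace Vale.Agent.P116.H155

/-- a punctured disk is connected -/
lemma preconn_pball (z₀ : ℂ) (ρ : ℝ) : IsPreconnected (ball z₀ ρ \ {z₀}) := by
  rcases le_or_gt ρ 0 with hρ | hρ
  · rw [ball_eq_empty.2 hρ, empty_sdiff]
    exact isPreconnected_empty
  have h1 : ball z₀ ρ \ {z₀} = (fun w : ℂ => z₀ + Complex.exp w) '' {w : ℂ | w.re < Real.log ρ} := by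
    ext z
    constructor
    · rintro ⟨h1, h2⟩
      have h3 : z - z₀ ≠ 0 := sub_ne_zero.2 h2
      refine ⟨Complex.log (z - z₀), ?_, ?_⟩
      · show (Complex.log (z - z₀)).re < Real.log ρ
        rw [Complex.log_re]
        exact Real.log_lt_log (norm_pos_iff.2 h3) (by rwa [mem_ball, dist_eq_norm] at h1)
      · simp only [Complex.exp_log h3]
        ring
    · rintro ⟨w, hw, rfl⟩
      have hw' : w.re < Real.log ρ := hw
      refine ⟨?_, ?_⟩
      · rw [mem_ball, dist_eq_norm, add_sub_cancel_left, Complex.norm_exp]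
        exact (Real.lt_log_iff_exp_lt hρ).1 hw'
      · rw [mem_singleton_iff, add_eq_left]
        exact Complex.exp_ne_zero w
  rw [h1]
  refine ((convex_halfSpace_re_lt (Real.log ρ)).isPreconnected).image _ ?_
  exact (continuous_const.add Complex.continuous_exp).continuousOn

/-- the outside of a disk is connected -/
lemma preconn_outside {ρ : ℝ} (hρ : 0 < ρ) : IsPreconnected (ball (0 : ℂ) ρ)ᶜ := by
  have h1 : (ball (0 : ℂ) ρ)ᶜ = Complex.exp '' {w : ℂ | Real.log ρ ≤ w.re} := by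
    ext z
    constructor
    · intro hz
      have h2 : ρ ≤ ‖z‖ := by
        rw [mem_compl_iff, mem_ball, dist_zero_right, not_lt] at hz
        exact hz
      have h3 : z ≠ 0 := norm_pos_iff.1 (hρ.trans_le h2)
      refine ⟨Complex.log z, ?_, Complex.exp_log h3⟩
      show Real.log ρ ≤ (Complex.log z).re
      rw [Complex.log_re]
      exact Real.log_le_log hρ h2
    · rintro ⟨w, hw, rfl⟩
      have hw' : Real.log ρ ≤ w.re := hw
      rw [mem_compl_iff, mem_ball, dist_zero_right, Complex.norm_exp, not_lt]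
      exact (Real.log_le_iff_le_exp hρ).1 hw'
  rw [h1]
  exact ((convex_halfSpace_re_ge (Real.log ρ)).isPreconnected).image _
    Complex.continuous_exp.continuousOn

/-- a plane domain minus a point is connected -/
lemma preconn_punct {G : Set ℂ} (hG : IsOpen G) (hc : IsPreconnected G) {z₀ : ℂ} (hz : z₀ ∈ G) :
    IsPreconnected (G \ {z₀}) := by
  obtain ⟨ρ, hρ, hρG⟩ := Metric.isOpen_iff.1 hG z₀ hz
  have hP := preconn_pball z₀ ρ
  have hPG : ball z₀ ρ \ {z₀} ⊆ G \ {z₀} := sdiff_subset_sdiff_left hρG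
  -- the main case
  have key : ∀ A B : Set ℂ, IsOpen A → IsOpen B → G \ {z₀} ⊆ A ∪ B →
      (G \ {z₀}) ∩ (A ∩ B) = ∅ → ball z₀ ρ \ {z₀} ⊆ A → ((G \ {z₀}) ∩ B).Nonempty → False := by
    intro A B hA hB hcov hdis hPA hBne
    have hGo : IsOpen (G \ {z₀}) := hG.sdiff isClosed_singleton
    have h1 := hc (((G \ {z₀}) ∩ A) ∪ ball z₀ ρ) ((G \ {z₀}) ∩ B)
      ((hGo.inter hA).union isOpen_ball) (hGo.inter hB) (fun z hzG => by
        by_cases hzz : z = z₀
        · exact Or.inl (Or.inr (hzz ▸ mem_ball_self hρ))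
        · rcases hcov ⟨hzG, hzz⟩ with h | h
          · exact Or.inl (Or.inl ⟨⟨hzG, hzz⟩, h⟩)
          · exact Or.inr ⟨⟨hzG, hzz⟩, h⟩)
      ⟨z₀, hz, Or.inr (mem_ball_self hρ)⟩
      (by
        obtain ⟨z, hz1, hz2⟩ := hBne
        exact ⟨z, hz1.1, hz1, hz2⟩)
    obtain ⟨z, -, hz1, hz2, hz3⟩ := h1
    rcases hz1 with ⟨-, h⟩ | h
    · exact (hdis ▸ (⟨hz2, h, hz3⟩ : z ∈ (G \ {z₀}) ∩ (A ∩ B)) : z ∈ (∅ : Set ℂ))
    · exact (hdis ▸ (⟨hz2, hPA ⟨h, hz2.2⟩, hz3⟩ : z ∈ (G \ {z₀}) ∩ (A ∩ B)) : z ∈ (∅ : Set ℂ))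
  intro A B hA hB hcov hAne hBne
  by_contra hcon
  rw [not_nonempty_iff_eq_empty] at hcon
  have h2 : (ball z₀ ρ \ {z₀}) ∩ (A ∩ B) = ∅ := by
    rw [← subset_empty_iff, ← hcon]
    exact inter_subset_inter_left _ hPG
  rcases isPreconnected_iff_subset_of_disjoint.1 hP A B hA hB (hPG.trans hcov) h2 with h | h
  · exact key A B hA hB hcov hcon h hBne
  · exact key B A hB hA (by rwa [union_comm]) (by rwa [inter_comm B A]) h hAne

/-- the criterion for components -/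
lemma comp_eq {F D : Set ℂ} {v : ℂ} (hv : v ∈ D) (hD : D ⊆ F) (hp : IsPreconnected D)
    (hmax : ∀ T ⊆ F, IsPreconnected T → v ∈ T → T ⊆ D) : connectedComponentIn F v = D :=
  Subset.antisymm (hmax _ (connectedComponentIn_subset _ _) isPreconnected_connectedComponentIn
    (mem_connectedComponentIn (hD hv))) (hp.subset_connectedComponentIn hv hD)

/-- the inversion of a closed disk which does not contain the centre of the inversion -/
lemma inv_mem {a v : ℂ} {r : ℝ} (hr : 0 ≤ r) (ha : r < ‖a‖) (hv : v ≠ 0) :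
    v⁻¹ ∈ closedBall a r ↔
      v ∈ closedBall ((starRingEnd ℂ) a / ((‖a‖ ^ 2 - r ^ 2 : ℝ) : ℂ)) (r / (‖a‖ ^ 2 - r ^ 2)) := by
  have hD : 0 < ‖a‖ ^ 2 - r ^ 2 := by nlinarith
  set D := ‖a‖ ^ 2 - r ^ 2 with hDdef
  have hv0 : 0 < ‖v‖ := norm_pos_iff.2 hv
  have h1 : v⁻¹ ∈ closedBall a r ↔ ‖1 - a * v‖ ^ 2 ≤ r ^ 2 * ‖v‖ ^ 2 := by
    rw [mem_closedBall, dist_eq_norm]
    have e : v⁻¹ - a = (1 - a * v) / v := by field_simp
    rw [e, norm_div, div_le_iff₀ hv0, ← mul_pow]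
    constructor
    · intro h
      exact pow_le_pow_left₀ (norm_nonneg _) h 2
    · intro h
      exact (pow_le_pow_iff_left₀ (norm_nonneg _) (by positivity) two_ne_zero).1 h
  have h2 : v ∈ closedBall ((starRingEnd ℂ) a / (D : ℂ)) (r / D) ↔
      ‖v * D - (starRingEnd ℂ) a‖ ^ 2 ≤ r ^ 2 := by
    rw [mem_closedBall, dist_eq_norm]
    have hDC : (D : ℂ) ≠ 0 := by exact_mod_cast hD.ne'
    have e : v - (starRingEnd ℂ) a / (D : ℂ) = (v * D - (starRingEnd ℂ) a) / (D : ℂ) := by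
      field_simp
    rw [e, norm_div, Complex.norm_real, Real.norm_of_nonneg hD.le, div_le_div_iff_of_pos_right hD]
    constructor
    · intro h
      exact pow_le_pow_left₀ (norm_nonneg _) h 2
    · intro h
      exact (pow_le_pow_iff_left₀ (norm_nonneg _) hr two_ne_zero).1 h
  rw [h1, h2]
  have e1 : ‖1 - a * v‖ ^ 2 = 1 - 2 * (a * v).re + ‖a‖ ^ 2 * ‖v‖ ^ 2 := by
    rw [← Complex.normSq_eq_norm_sq, ← Complex.normSq_eq_norm_sq, ← Complex.normSq_eq_norm_sq,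
      Complex.normSq_apply, Complex.normSq_apply, Complex.normSq_apply]
    simp only [Complex.sub_re, Complex.one_re, Complex.mul_re, Complex.sub_im, Complex.one_im,
      Complex.mul_im]
    ring
  have e2 : ‖v * D - (starRingEnd ℂ) a‖ ^ 2 = D ^ 2 * ‖v‖ ^ 2 - 2 * D * (a * v).re + ‖a‖ ^ 2 := by
    rw [← Complex.normSq_eq_norm_sq, ← Complex.normSq_eq_norm_sq, ← Complex.normSq_eq_norm_sq,
      Complex.normSq_apply, Complex.normSq_apply, Complex.normSq_apply]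
    simp only [Complex.sub_re, Complex.mul_re, Complex.sub_im, Complex.ofReal_re,
      Complex.ofReal_im, Complex.mul_im, Complex.conj_re, Complex.conj_im]
    ring
  rw [e1, e2]
  have h3 : ‖a‖ ^ 2 = D + r ^ 2 := by rw [hDdef]; ring
  rw [h3]
  constructor
  · intro h
    nlinarith [mul_le_mul_of_nonneg_left h hD.le]
  · intro h
    have h4 : D * (1 - 2 * (a * v).re + (D + r ^ 2) * ‖v‖ ^ 2 - r ^ 2 * ‖v‖ ^ 2) ≤ 0 := by
      nlinarith
    have h5 := nonpos_of_mul_nonpos_right h4 hD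
    linarith

/-- the components of the image of a plane domain, after an inversion -/
lemma comp_inv {E : Set ℂ} {c₀ : ℂ} {r₀ : ℝ} (hr₀ : 0 ≤ r₀)
    (h0 : connectedComponentIn E c₀ = closedBall c₀ r₀) {v u : ℂ} (hv : v ≠ 0)
    (hu : u = c₀ + v⁻¹) (huE : u ∈ E) {c : ℂ} {r : ℝ} (hr : 0 ≤ r)
    (huc : connectedComponentIn E u = closedBall c r) :
    (∃ (c' : ℂ) (r' : ℝ), 0 ≤ r' ∧
      connectedComponentIn {w | w ≠ 0 ∧ c₀ + w⁻¹ ∈ E} v = closedBall c' r') ∨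
    ∃ r' : ℝ, 0 < r' ∧ connectedComponentIn {w | w ≠ 0 ∧ c₀ + w⁻¹ ∈ E} v = (ball 0 r')ᶜ := by
  set F : Set ℂ := {w | w ≠ 0 ∧ c₀ + w⁻¹ ∈ E} with hF
  have hmax : ∀ T ⊆ F, IsPreconnected T → v ∈ T → ∀ w ∈ T, c₀ + w⁻¹ ∈ connectedComponentIn E u := by
    intro T hT hTc hvT w hw
    have h1 : IsPreconnected ((fun w : ℂ => c₀ + w⁻¹) '' T) := by
      refine hTc.image _ ?_
      exact continuousOn_const.add (continuousOn_id.inv₀ fun w hw => (hT hw).1)
    have h2 : (fun w : ℂ => c₀ + w⁻¹) '' T ⊆ E := by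
      rintro _ ⟨w, hw, rfl⟩
      exact (hT hw).2
    exact h1.subset_connectedComponentIn ⟨v, hvT, hu.symm⟩ h2 ⟨w, hw, rfl⟩
  have huu : u ∈ connectedComponentIn E u := mem_connectedComponentIn huE
  by_cases hc : c₀ ∈ closedBall c r
  · -- the outer component
    right
    have h1 : connectedComponentIn E u = closedBall c₀ r₀ := by
      rw [← h0]
      exact connectedComponentIn_eq (huc ▸ hc)
    rw [h1] at huu hmax
    have h2 : ‖v⁻¹‖ ≤ r₀ := by
      rw [hu, mem_closedBall, dist_eq_norm, add_sub_cancel_left] at huu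
      exact huu
    have hr₀' : 0 < r₀ := (norm_pos_iff.2 (inv_ne_zero hv)).trans_le h2
    have hmem : ∀ w : ℂ, w ∈ (ball (0 : ℂ) r₀⁻¹)ᶜ ↔ w ≠ 0 ∧ c₀ + w⁻¹ ∈ closedBall c₀ r₀ := by
      intro w
      rw [mem_compl_iff, mem_ball, dist_zero_right, not_lt, mem_closedBall, dist_eq_norm,
        add_sub_cancel_left, norm_inv]
      constructor
      · intro h
        have h3 : 0 < ‖w‖ := (inv_pos.2 hr₀').trans_le h
        exact ⟨norm_pos_iff.1 h3, (inv_le_comm₀ h3 hr₀').2 h⟩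
      · rintro ⟨h3, h4⟩
        exact (inv_le_comm₀ (norm_pos_iff.2 h3) hr₀').1 h4
    have hsub : closedBall c₀ r₀ ⊆ E := by
      rw [← h0]
      exact connectedComponentIn_subset _ _
    refine ⟨r₀⁻¹, inv_pos.2 hr₀', comp_eq ?_ ?_ (preconn_outside (inv_pos.2 hr₀')) ?_⟩
    · exact (hmem v).2 ⟨hv, hu ▸ huu⟩
    · intro w hw
      obtain ⟨h3, h4⟩ := (hmem w).1 hw
      exact ⟨h3, hsub h4⟩
    · intro T hT hTc hvT w hw
      exact (hmem w).2 ⟨(hT hw).1, hmax T hT hTc hvT w hw⟩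
  · left
    have ha : r < ‖c - c₀‖ := by
      rw [mem_closedBall, dist_comm, dist_eq_norm, not_le] at hc
      exact hc
    have hD : 0 < ‖c - c₀‖ ^ 2 - r ^ 2 := by nlinarith
    have hmem : ∀ w : ℂ, w ≠ 0 → (c₀ + w⁻¹ ∈ closedBall c r ↔
        w ∈ closedBall ((starRingEnd ℂ) (c - c₀) / ((‖c - c₀‖ ^ 2 - r ^ 2 : ℝ) : ℂ))
          (r / (‖c - c₀‖ ^ 2 - r ^ 2))) := by
      intro w hw
      rw [← inv_mem hr ha hw, mem_closedBall, mem_closedBall, dist_eq_norm, dist_eq_norm]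
      have e : c₀ + w⁻¹ - c = w⁻¹ - (c - c₀) := by ring
      rw [e]
    have h00 : (0 : ℂ) ∉ closedBall ((starRingEnd ℂ) (c - c₀) / ((‖c - c₀‖ ^ 2 - r ^ 2 : ℝ) : ℂ))
        (r / (‖c - c₀‖ ^ 2 - r ^ 2)) := by
      rw [mem_closedBall, dist_comm, dist_zero_right, norm_div, Complex.norm_real,
        Real.norm_of_nonneg hD.le, RCLike.norm_conj, not_le]
      exact (div_lt_div_iff_of_pos_right hD).2 ha
    have hsub : closedBall c r ⊆ E := by
      rw [← huc]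
      exact connectedComponentIn_subset _ _
    rw [huc] at huu hmax
    refine ⟨_, r / (‖c - c₀‖ ^ 2 - r ^ 2), by positivity, comp_eq ((hmem v hv).1 (hu ▸ huu)) ?_
      isPreconnected_closedBall ?_⟩
    · intro w hw
      have h3 : w ≠ 0 := fun h => h00 (h ▸ hw)
      exact ⟨h3, hsub ((hmem w h3).2 hw)⟩
    · intro T hT hTc hvT w hw
      exact (hmem w (hT hw).1).1 (hmax T hT hTc hvT w hw)

/-- **Koebe's theorem for plane domains**, normalised at any given point -/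
theorem koebe_plane {G : Set ℂ} (hG : IsOpen G) (hc : IsPreconnected G) {z₀ : ℂ} (hz₀ : z₀ ∈ G) :
    ∃ f : ℂ → ℂ, DifferentiableOn ℂ f G ∧ InjOn f G ∧ f z₀ = 0 ∧ HasDerivAt f 1 z₀ ∧
      ∀ w ∉ f '' G, (∃ (c : ℂ) (r : ℝ), 0 ≤ r ∧
        connectedComponentIn (f '' G)ᶜ w = closedBall c r) ∨
        ∃ r : ℝ, 0 < r ∧ connectedComponentIn (f '' G)ᶜ w = (ball 0 r)ᶜ := by
  classical
  obtain ⟨ρ, hρ, hρG⟩ := Metric.isOpen_iff.1 hG z₀ hz₀
  set K : Set ℂ := {w | w = 0 ∨ z₀ + w⁻¹ ∉ G} with hKdef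
  have hKc : Kᶜ = {w | w ≠ 0 ∧ z₀ + w⁻¹ ∈ G} := by
    ext w
    simp only [hKdef, mem_compl_iff, mem_setOf_eq, not_or, not_not, ne_eq]
  have hKc' : Kᶜ = (fun z : ℂ => (z - z₀)⁻¹) '' (G \ {z₀}) := by
    rw [hKc]
    ext w
    constructor
    · rintro ⟨h1, h2⟩
      refine ⟨z₀ + w⁻¹, ⟨h2, ?_⟩, ?_⟩
      · rw [mem_singleton_iff, add_eq_left]
        exact inv_ne_zero h1
      · simp
    · rintro ⟨z, ⟨h1, h2⟩, rfl⟩
      have h3 : z - z₀ ≠ 0 := sub_ne_zero.2 h2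
      exact ⟨inv_ne_zero h3, by simpa using h1⟩
  have hKo : IsOpen Kᶜ := by
    rw [hKc, isOpen_iff_mem_nhds]
    rintro w ⟨h1, h2⟩
    have h3 : ContinuousAt (fun w : ℂ => z₀ + w⁻¹) w := continuousAt_const.add (continuousAt_inv₀ h1)
    filter_upwards [isOpen_ne.mem_nhds h1, h3.preimage_mem_nhds (hG.mem_nhds h2)] with y hy1 hy2
    exact ⟨hy1, hy2⟩
  have hK : IsCompact K := by
    refine Metric.isCompact_of_isClosed_isBounded (isOpen_compl_iff.1 hKo) ?_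
    refine (isBounded_closedBall (x := (0 : ℂ)) (r := ρ⁻¹)).subset fun w hw => ?_
    rw [mem_closedBall, dist_zero_right]
    by_contra hcon
    rw [not_le] at hcon
    have h1 : 0 < ‖w‖ := (inv_pos.2 hρ).trans hcon
    rcases hw with h | h
    · rw [h, norm_zero] at h1
      exact lt_irrefl _ h1
    · refine h (hρG ?_)
      rw [mem_ball, dist_eq_norm, add_sub_cancel_left, norm_inv]
      exact (inv_lt_comm₀ hρ h1).1 hcon
  have hpre : IsPreconnected Kᶜ := by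
    rw [hKc']
    refine (preconn_punct hG hc hz₀).image _ ?_
    exact (continuousOn_id.sub continuousOn_const).inv₀ fun z hz => sub_ne_zero.2 hz.2
  obtain ⟨g, cc, rr, hgd, hgi, hgn, -, hgU, hgx⟩ := koebe_full hK hpre
  have h0K : (0 : ℂ) ∈ K := Or.inl rfl
  obtain ⟨hr0, hcomp0, -, -⟩ := hgx 0 h0K
  set c₀ := cc 0 with hc₀
  set r₀ := rr 0
  have hc₀E : c₀ ∈ (g '' Kᶜ)ᶜ :=
    connectedComponentIn_subset _ _ (hcomp0 ▸ mem_closedBall_self hr0)
  have hgne : ∀ w ∈ Kᶜ, g w - c₀ ≠ 0 := fun w hw h => hc₀E ⟨w, hw, sub_eq_zero.1 h⟩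
  set f : ℂ → ℂ := fun z => if z = z₀ then 0 else (g ((z - z₀)⁻¹) - c₀)⁻¹ with hfdef
  have hf0 : f z₀ = 0 := by simp only [hfdef, if_true]
  have hfz : ∀ z, z ≠ z₀ → f z = (g ((z - z₀)⁻¹) - c₀)⁻¹ := fun z hz => by
    simp only [hfdef, if_neg hz]
  have hmK : ∀ z ∈ G, z ≠ z₀ → (z - z₀)⁻¹ ∈ Kᶜ := fun z hz hzz => by
    rw [hKc']
    exact ⟨z, ⟨hz, hzz⟩, rfl⟩
  -- derivative at `z₀`
  have hderiv : HasDerivAt f 1 z₀ := by
    rw [hasDerivAt_iff_tendsto_slope]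
    have h1 : Tendsto (fun z : ℂ => (z - z₀)⁻¹) (𝓝[≠] z₀) (cocompact ℂ) := by
      rw [← Metric.cobounded_eq_cocompact]
      have h2 : Tendsto (fun z : ℂ => z - z₀) (𝓝[≠] z₀) (𝓝[≠] 0) := by
        refine tendsto_nhdsWithin_iff.2 ⟨?_, ?_⟩
        · have : Tendsto (fun z : ℂ => z - z₀) (𝓝 z₀) (𝓝 (z₀ - z₀)) :=
            (continuous_id.sub continuous_const).tendsto z₀
          rw [sub_self] at this
          exact this.mono_left nhdsWithin_le_nhds
        · filter_upwards [self_mem_nhdsWithin] with z hz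
          exact sub_ne_zero.2 hz
      exact tendsto_inv₀_nhdsNE_zero.comp h2
    have h3 : Tendsto (fun z => g ((z - z₀)⁻¹) - (z - z₀)⁻¹) (𝓝[≠] z₀) (𝓝 0) := hgn.comp h1
    have h4 : Tendsto (fun z : ℂ => z - z₀) (𝓝[≠] z₀) (𝓝 0) := by
      have : Tendsto (fun z : ℂ => z - z₀) (𝓝 z₀) (𝓝 (z₀ - z₀)) :=
        (continuous_id.sub continuous_const).tendsto z₀
      rw [sub_self] at this
      exact this.mono_left nhdsWithin_le_nhds
    have h5 : Tendsto (fun z => 1 + (z - z₀) * ((g ((z - z₀)⁻¹) - (z - z₀)⁻¹) - c₀))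
        (𝓝[≠] z₀) (𝓝 1) := by
      have := (h4.mul (h3.sub_const c₀)).const_add 1
      simpa using this
    have h6 := h5.inv₀ one_ne_zero
    rw [inv_one] at h6
    refine h6.congr' ?_
    filter_upwards [self_mem_nhdsWithin] with z hz
    have h7 : z - z₀ ≠ 0 := sub_ne_zero.2 hz
    rw [slope_def_field, hf0, hfz z hz, sub_zero]
    have e : 1 + (z - z₀) * (g (z - z₀)⁻¹ - (z - z₀)⁻¹ - c₀) = (z - z₀) * (g (z - z₀)⁻¹ - c₀) := by
      have h8 : (z - z₀) * (z - z₀)⁻¹ = 1 := mul_inv_cancel₀ h7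
      linear_combination -h8
    rw [e, mul_inv, div_eq_mul_inv, mul_comm]
  have hdiff : DifferentiableOn ℂ f G := by
    refine (Complex.differentiableOn_compl_singleton_and_continuousAt_iff (hG.mem_nhds hz₀)).1
      ⟨?_, hderiv.continuousAt⟩
    have h1 : DifferentiableOn ℂ (fun z : ℂ => (z - z₀)⁻¹) (G \ {z₀}) := by
      refine DifferentiableOn.inv ?_ fun z hz => sub_ne_zero.2 hz.2
      exact (differentiableOn_id.sub_const z₀)
    have h2 : DifferentiableOn ℂ (fun z : ℂ => (g ((z - z₀)⁻¹) - c₀)⁻¹) (G \ {z₀}) := by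
      refine DifferentiableOn.inv ?_ fun z hz => hgne _ (hmK z hz.1 hz.2)
      exact (hgd.comp h1 fun z hz => hmK z hz.1 hz.2).sub_const c₀
    exact h2.congr fun z hz => hfz z hz.2
  have hinj : InjOn f G := by
    intro z hz z' hz' h
    by_cases h1 : z = z₀ <;> by_cases h2 : z' = z₀
    · rw [h1, h2]
    · rw [h1, hf0, hfz z' h2] at h
      exact absurd h.symm (inv_ne_zero (hgne _ (hmK z' hz' h2)))
    · rw [h2, hf0, hfz z h1] at h
      exact absurd h (inv_ne_zero (hgne _ (hmK z hz h1)))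
    · rw [hfz z h1, hfz z' h2] at h
      have h3 := hgi (hmK z hz h1) (hmK z' hz' h2) (sub_left_injective (inv_injective h))
      exact sub_left_injective (inv_injective h3)
  have himg : (f '' G)ᶜ = {v | v ≠ 0 ∧ c₀ + v⁻¹ ∈ (g '' Kᶜ)ᶜ} := by
    ext v
    simp only [mem_compl_iff, mem_setOf_eq]
    constructor
    · intro h
      refine ⟨fun h0 => h ⟨z₀, hz₀, by rw [hf0, h0]⟩, ?_⟩
      rintro ⟨w, hw, hwv⟩
      rw [hKc'] at hw
      obtain ⟨z, ⟨hz, hzz⟩, rfl⟩ := hw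
      refine h ⟨z, hz, ?_⟩
      rw [hfz z hzz]
      simp only at hwv
      rw [hwv, add_sub_cancel_left, inv_inv]
    · rintro ⟨h0, h1⟩ ⟨z, hz, hzv⟩
      by_cases hzz : z = z₀
      · rw [hzz, hf0] at hzv
        exact h0 hzv.symm
      · refine h1 ⟨(z - z₀)⁻¹, hmK z hz hzz, ?_⟩
        rw [← hzv, hfz z hzz, inv_inv]
        ring
  refine ⟨f, hdiff, hinj, hf0, hderiv, fun v hv => ?_⟩
  have hv' : v ∈ (f '' G)ᶜ := hv
  rw [himg] at hv' ⊢
  obtain ⟨hv0, hvE⟩ := hv'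
  obtain ⟨x, hx, h3⟩ := hgU _ hvE
  exact comp_inv hr0 hcomp0 hv0 rfl hvE (hgx x hx).1 h3

end Vale.Agent.P116.H155
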